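import Vale.Agent.P262.FBMain

/-!
# Rounding with fractional start, general unit functionals and a quadratic steering term.

Columns `l v` of norm at most one in a Euclidean space, fractional `y v`, unit functionals `b e`
(exponential rows) and arbitrary functionals `Lf f` (quadratic steering rows).
With `O = ∑ v, (Y v - y v) • l v`:
`∑ e, (exp (t ⟪b e, O⟫) + exp (-t ⟪b e, O⟫)) + κ ∑ f, (x f + ζ ⟪Lf f, O⟫)^2
   ≤ exp (t^2 (100/27) / 2) (2 |R|) + κ (∑ f, (x f)^2 + (100/27) ζ^2 ∑ f, ‖Lf f‖^2)`.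
-/

open MeasureTheory ProbabilityTheory Finset
open scoped InnerProductSpace

namespace Vale.Agent.P262V

open Vale.Agent.P262.FB (Adm fb_main)

variable {E : Type} [NormedAddCommGroup E] [InnerProductSpace ℝ E] [FiniteDimensional ℝ E]
  [MeasurableSpace E] [BorelSpace E]

/-- Law of an inner product under the standard Gaussian. -/
lemma map_inner (b : E) :
    (stdGaussian E).map (fun z => ⟪b, z⟫_ℝ) = gaussianReal 0 (‖b‖₊ ^ 2) := by
  have h := IsGaussian.map_eq_gaussianReal (μ := stdGaussian E) (innerSL ℝ b)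
  have h1 : (⇑(innerSL ℝ b)) = fun z => ⟪b, z⟫_ℝ := by
    funext z
    simp
  rw [h1] at h
  rw [h]
  have hm : ∫ w : E, ⟪b, w⟫_ℝ ∂stdGaussian E = 0 := by
    have := integral_strongDual_stdGaussian (E := E) (innerSL ℝ b)
    simpa using this
  have hv : Var[fun z : E => ⟪b, z⟫_ℝ; stdGaussian E] = ‖b‖ ^ 2 := by
    have := variance_dual_stdGaussian (E := E) (innerSL ℝ b)
    rw [h1, innerSL_apply_norm] at this
    exact this
  rw [hm, hv]
  congr 1
  apply NNReal.eq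
  rw [Real.coe_toNNReal _ (by positivity)]
  simp

lemma meas_inner (b : E) : Measurable (fun z : E => ⟪b, z⟫_ℝ) := by
  have : Continuous (fun z : E => ⟪b, z⟫_ℝ) := by fun_prop
  exact this.measurable

lemma exp_inner_integrable (a : ℝ) (b : E) :
    Integrable (fun z : E => Real.exp (a + ⟪b, z⟫_ℝ)) (stdGaussian E) := by
  have h : Integrable (fun x : ℝ => Real.exp (a + x)) ((stdGaussian E).map (fun z => ⟪b, z⟫_ℝ)) := by
    rw [map_inner]
    have := (integrable_exp_mul_gaussianReal (μ := 0) (v := ‖b‖₊ ^ 2) 1).const_mul (Real.exp a)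
    refine this.congr (Filter.Eventually.of_forall fun x => ?_)
    simp only [one_mul]
    rw [← Real.exp_add]
  exact (integrable_map_measure (by fun_prop) (meas_inner b).aemeasurable).mp h

lemma exp_inner_integral (a : ℝ) (b : E) :
    ∫ z : E, Real.exp (a + ⟪b, z⟫_ℝ) ∂(stdGaussian E) = Real.exp (a + ‖b‖ ^ 2 / 2) := by
  have h1 : ∫ z : E, Real.exp (a + ⟪b, z⟫_ℝ) ∂(stdGaussian E)
      = ∫ x : ℝ, Real.exp (a + x) ∂((stdGaussian E).map (fun z => ⟪b, z⟫_ℝ)) := by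
    rw [integral_map (meas_inner b).aemeasurable (by fun_prop)]
  rw [h1, map_inner]
  have h2 : ∀ x : ℝ, Real.exp (a + x) = Real.exp a * Real.exp (1 * x) := fun x => by
    rw [one_mul, Real.exp_add]
  simp_rw [h2]
  rw [integral_const_mul]
  have h3 := congrFun (mgf_id_gaussianReal (μ := 0) (v := ‖b‖₊ ^ 2)) 1
  simp only [mgf, id] at h3
  rw [h3, Real.exp_add]
  congr 2
  push_cast
  simp

lemma sq_inner_integrable (x : ℝ) (b : E) :
    Integrable (fun z : E => (x + ⟪b, z⟫_ℝ) ^ 2) (stdGaussian E) := by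
  have h : Integrable (fun y : ℝ => (x + y) ^ 2) ((stdGaussian E).map (fun z => ⟪b, z⟫_ℝ)) := by
    rw [map_inner]
    have h1 : MemLp (fun y : ℝ => y) 2 (gaussianReal 0 (‖b‖₊ ^ 2)) := memLp_id_gaussianReal 2
    have h2 : Integrable (fun y : ℝ => y ^ 2) (gaussianReal 0 (‖b‖₊ ^ 2)) :=
      h1.integrable_sq
    have h3 : Integrable (fun y : ℝ => y) (gaussianReal 0 (‖b‖₊ ^ 2)) :=
      h1.integrable (by norm_num)
    have h4 := (((integrable_const (x ^ 2)).add (h3.const_mul (2 * x))).add h2)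
    refine h4.congr (Filter.Eventually.of_forall fun y => ?_)
    simp only [Pi.add_apply]
    ring
  exact (integrable_map_measure (by fun_prop) (meas_inner b).aemeasurable).mp h

lemma sq_inner_integral (x : ℝ) (b : E) :
    ∫ z : E, (x + ⟪b, z⟫_ℝ) ^ 2 ∂(stdGaussian E) = x ^ 2 + ‖b‖ ^ 2 := by
  have h1 : ∫ z : E, (x + ⟪b, z⟫_ℝ) ^ 2 ∂(stdGaussian E)
      = ∫ y : ℝ, (x + y) ^ 2 ∂((stdGaussian E).map (fun z => ⟪b, z⟫_ℝ)) := by
    rw [integral_map (meas_inner b).aemeasurable (by fun_prop)]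
  rw [h1, map_inner]
  have hm : MemLp (fun y : ℝ => y) 2 (gaussianReal 0 (‖b‖₊ ^ 2)) := memLp_id_gaussianReal 2
  have h2 : Integrable (fun y : ℝ => y ^ 2) (gaussianReal 0 (‖b‖₊ ^ 2)) := hm.integrable_sq
  have h3 : Integrable (fun y : ℝ => y) (gaussianReal 0 (‖b‖₊ ^ 2)) := hm.integrable (by norm_num)
  have e : ∀ y : ℝ, (x + y) ^ 2 = x ^ 2 + 2 * x * y + y ^ 2 := fun y => by ring
  simp_rw [e]
  have i1 : Integrable (fun y : ℝ => x ^ 2 + 2 * x * y) (gaussianReal 0 (‖b‖₊ ^ 2)) :=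
    (integrable_const (x ^ 2)).add (h3.const_mul (2 * x))
  rw [integral_add i1 h2,
    integral_add (integrable_const _) (h3.const_mul _), integral_const_mul]
  have hmean : ∫ y : ℝ, y ∂(gaussianReal 0 (‖b‖₊ ^ 2)) = 0 := by
    simpa using integral_id_gaussianReal (μ := 0) (v := ‖b‖₊ ^ 2)
  have hvar : ∫ y : ℝ, y ^ 2 ∂(gaussianReal 0 (‖b‖₊ ^ 2)) = ‖b‖ ^ 2 := by
    have hv := variance_id_gaussianReal (μ := 0) (v := ‖b‖₊ ^ 2)
    have hv2 := variance_eq_sub (μ := gaussianReal 0 (‖b‖₊ ^ 2)) (X := id) hm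
    have e1 : ∫ y : ℝ, (id y) ^ 2 ∂(gaussianReal 0 (‖b‖₊ ^ 2)) = ∫ y : ℝ, y ^ 2 ∂(gaussianReal 0 (‖b‖₊ ^ 2)) := rfl
    have e2 : ∫ y : ℝ, id y ∂(gaussianReal 0 (‖b‖₊ ^ 2)) = 0 := hmean
    simp only [Pi.pow_apply] at hv2
    rw [hv, e1, e2] at hv2
    have : ∫ y : ℝ, y ^ 2 ∂(gaussianReal 0 (‖b‖₊ ^ 2)) = (((‖b‖₊ ^ 2 : NNReal)) : ℝ) := by
      rw [hv2]; ring
    rw [this]
    simp
  rw [hmean, hvar]
  simp

lemma adm_exp_inner (a : ℝ) (b : E) : Adm (fun z : E => Real.exp (a + ⟪b, z⟫_ℝ)) where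
  convex := by
    refine ⟨convex_univ, fun x _ y _ p q hp hq hpq => ?_⟩
    have h := convexOn_exp.2 (Set.mem_univ (a + ⟪b, x⟫_ℝ)) (Set.mem_univ (a + ⟪b, y⟫_ℝ)) hp hq hpq
    simp only [smul_eq_mul] at h ⊢
    refine le_trans (le_of_eq ?_) h
    congr 1
    rw [inner_add_right, inner_smul_right, inner_smul_right]
    have : a = (p + q) * a := by rw [hpq, one_mul]
    nlinarith
  nonneg := fun _ => (Real.exp_pos _).le
  integ := by
    intro v
    have := exp_inner_integrable (a + ⟪b, v⟫_ℝ) b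
    refine this.congr (Filter.Eventually.of_forall fun x => ?_)
    simp only [inner_add_right]
    congr 1
    ring

lemma adm_sq_inner (x : ℝ) (b : E) : Adm (fun z : E => (x + ⟪b, z⟫_ℝ) ^ 2) where
  convex := by
    refine ⟨convex_univ, fun u _ w _ p q hp hq hpq => ?_⟩
    simp only [smul_eq_mul]
    rw [inner_add_right, inner_smul_right, inner_smul_right]
    have h0 : x = (p + q) * x := by rw [hpq, one_mul]
    have h1 : x + (p * ⟪b, u⟫_ℝ + q * ⟪b, w⟫_ℝ)
        = p * (x + ⟪b, u⟫_ℝ) + q * (x + ⟪b, w⟫_ℝ) := by nlinarith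
    rw [h1]
    have hq' : q = 1 - p := by linarith
    subst hq'
    nlinarith [mul_nonneg hp hq, sq_nonneg ((x + ⟪b, u⟫_ℝ) - (x + ⟪b, w⟫_ℝ))]
  nonneg := fun _ => sq_nonneg _
  integ := by
    intro v
    have := sq_inner_integrable (x + ⟪b, v⟫_ℝ) b
    refine this.congr (Filter.Eventually.of_forall fun y => ?_)
    simp only [inner_add_right]
    congr 1
    ring

lemma adm_const {c : ℝ} (hc : 0 ≤ c) : Adm (fun _ : E => c) where
  convex := convexOn_const _ convex_univ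
  nonneg := fun _ => hc
  integ := fun _ => integrable_const _

lemma Adm_sum {J : Type*} (s : Finset J) (g : J → E → ℝ)
    (hg : ∀ j ∈ s, Adm (g j)) : Adm (fun x => ∑ j ∈ s, g j x) := by
  classical
  induction s using Finset.induction_on with
  | empty => simpa using Adm.zero
  | insert a s ha ih =>
    simp only [Finset.sum_insert ha]
    exact (hg a (Finset.mem_insert_self _ _)).add
      (ih fun j hj => hg j (Finset.mem_insert_of_mem hj))

/-- A single convex test function and a family indexed by a fintype: one signing beats the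
Gaussian average. -/
lemma fb_one {ι : Type} [Fintype ι] (u : ι → E)
    (hu : ∀ i, ‖u i‖ ≤ 3 / 10) (F : E → ℝ) (hF : Adm F) :
    ∃ ε : ι → ℝ, (∀ i, ε i = 1 ∨ ε i = -1) ∧
      F (∑ i, ε i • u i) ≤ ∫ z, F z ∂(stdGaussian E) := by
  classical
  let n := Fintype.card ι
  let eqv : ι ≃ Fin n := Fintype.equivFin ι
  let u' : ℕ → E := fun i => if h : i < n then u (eqv.symm ⟨i, h⟩) else 0
  let g : ℕ → E → ℝ := fun t => if t = n then F else fun _ => 0
  have hu' : ∀ i, ‖u' i‖ ≤ 3 / 10 := by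
    intro i
    simp only [u']
    split_ifs with h
    · exact hu _
    · simp only [norm_zero]; norm_num
  have hg : ∀ i, Adm (g i) := by
    intro i
    simp only [g]
    split_ifs
    · exact hF
    · exact Adm.zero
  obtain ⟨ε, hε, hsum⟩ := fb_main u' g hu' hg (n + 1)
  refine ⟨fun i => ε (eqv i), fun i => hε _, ?_⟩
  have hl : ∑ t ∈ range (n + 1), g t (∑ i ∈ range (t + 1), ε i • u' i)
      = F (∑ i ∈ range (n + 1), ε i • u' i) := by
    rw [Finset.sum_eq_single n]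
    · simp [g]
    · intro b hb hbn
      simp [g, hbn]
    · intro h
      simp at h
  have hr : ∑ t ∈ range (n + 1), ∫ x, g t x ∂(stdGaussian E)
      = ∫ x, F x ∂(stdGaussian E) := by
    rw [Finset.sum_eq_single n]
    · simp [g]
    · intro b hb hbn
      simp [g, hbn]
    · intro h
      simp at h
  rw [hl, hr] at hsum
  have hs : ∑ i ∈ range (n + 1), ε i • u' i = ∑ i, ε (eqv i) • u i := by
    rw [Finset.sum_range_succ]
    have h0 : u' n = 0 := by simp [u']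
    rw [h0, smul_zero, add_zero, Finset.sum_range]
    rw [← Equiv.sum_comp eqv]
    refine Finset.sum_congr rfl fun i _ => ?_
    simp only [u']
    rw [dif_pos (eqv i).2]
    simp
  rwa [hs] at hsum

variable {R F : Type} [Fintype R] [Fintype F]

/-- The exponential part of the potential. -/
noncomputable def Ex (b : R → E) (t : ℝ) (O : E) : ℝ :=
  ∑ e, (Real.exp (t * ⟪b e, O⟫_ℝ) + Real.exp (-t * ⟪b e, O⟫_ℝ))

/-- The quadratic part of the potential. -/
noncomputable def Qd (Lf : F → E) (ζ : ℝ) (x : F → ℝ) (O : E) : ℝ :=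
  ∑ f, (x f + ζ * ⟪Lf f, O⟫_ℝ) ^ 2

lemma Ex_nonneg (b : R → E) (t : ℝ) (O : E) : 0 ≤ Ex b t O :=
  Finset.sum_nonneg fun _ _ => add_nonneg (Real.exp_pos _).le (Real.exp_pos _).le

lemma Qd_nonneg (Lf : F → E) (ζ : ℝ) (x : F → ℝ) (O : E) : 0 ≤ Qd Lf ζ x O :=
  Finset.sum_nonneg fun _ _ => sq_nonneg _

lemma Ex_zero (b : R → E) (t : ℝ) : Ex b t (0 : E) = 2 * Fintype.card R := by
  simp [Ex, Finset.card_univ]
  ring

lemma Qd_zero (Lf : F → E) (ζ : ℝ) (x : F → ℝ) : Qd Lf ζ x (0 : E) = ∑ f, x f ^ 2 := by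
  simp [Qd]

/-- The Gaussian average of the exponential part at a shifted point. -/
lemma Ex_shift_integral (b : R → E) (hb : ∀ e, ‖b e‖ ≤ 1) (t s : ℝ) (O : E) :
    (Adm fun z : E => Ex b t (O + s • z)) ∧
    ∫ z : E, Ex b t (O + s • z) ∂(stdGaussian E) ≤ Real.exp ((t * s) ^ 2 / 2) * Ex b t O := by
  have e1 : ∀ (c : ℝ) (e : R) (z : E), Real.exp (c * ⟪b e, O + s • z⟫_ℝ)
      = Real.exp (c * ⟪b e, O⟫_ℝ + ⟪(c * s) • b e, z⟫_ℝ) := by
    intro c e z
    congr 1
    rw [inner_add_right, inner_smul_right, inner_smul_left]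
    simp
    ring
  have e2 : (fun z : E => Ex b t (O + s • z)) = fun z => ∑ e,
      (Real.exp (t * ⟪b e, O⟫_ℝ + ⟪(t * s) • b e, z⟫_ℝ)
        + Real.exp (-t * ⟪b e, O⟫_ℝ + ⟪(-t * s) • b e, z⟫_ℝ)) := by
    funext z
    unfold Ex
    refine Finset.sum_congr rfl fun e _ => ?_
    rw [e1 t e z, e1 (-t) e z]
  rw [e2]
  constructor
  · refine Adm_sum _ _ fun e _ => (adm_exp_inner _ _).add (adm_exp_inner _ _)
  · rw [integral_finsetSum]
    · unfold Ex
      rw [Finset.mul_sum]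
      refine Finset.sum_le_sum fun e _ => ?_
      rw [integral_add (exp_inner_integrable _ _) (exp_inner_integrable _ _),
        exp_inner_integral, exp_inner_integral, mul_add]
      have hb2 : ‖b e‖ ^ 2 ≤ 1 := by
        have := hb e
        nlinarith [norm_nonneg (b e)]
      have key : ∀ (a c : ℝ), c ^ 2 = (t * s) ^ 2 →
          Real.exp (a + ‖c • b e‖ ^ 2 / 2) ≤ Real.exp ((t * s) ^ 2 / 2) * Real.exp a := by
        intro a c hc
        rw [← Real.exp_add]
        apply Real.exp_le_exp.mpr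
        rw [norm_smul, mul_pow, Real.norm_eq_abs, sq_abs, hc]
        nlinarith [sq_nonneg (t * s)]
      exact add_le_add (key _ _ rfl) (key _ _ (by ring))
    · intro e _
      exact (exp_inner_integrable _ _).add (exp_inner_integrable _ _)

/-- The Gaussian average of the quadratic part at a shifted point. -/
lemma Qd_shift_integral (Lf : F → E) (ζ : ℝ) (x : F → ℝ) (s : ℝ) (O : E) :
    (Adm fun z : E => Qd Lf ζ x (O + s • z)) ∧
    ∫ z : E, Qd Lf ζ x (O + s • z) ∂(stdGaussian E)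
      = Qd Lf ζ x O + (ζ * s) ^ 2 * ∑ f, ‖Lf f‖ ^ 2 := by
  have e2 : (fun z : E => Qd Lf ζ x (O + s • z)) = fun z => ∑ f,
      ((x f + ζ * ⟪Lf f, O⟫_ℝ) + ⟪(ζ * s) • Lf f, z⟫_ℝ) ^ 2 := by
    funext z
    unfold Qd
    refine Finset.sum_congr rfl fun f _ => ?_
    congr 1
    rw [inner_add_right, inner_smul_right, inner_smul_left]
    simp
    ring
  rw [e2]
  constructor
  · exact Adm_sum _ _ fun f _ => adm_sq_inner _ _
  · rw [integral_finsetSum _ fun f _ => sq_inner_integrable _ _]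
    unfold Qd
    rw [Finset.mul_sum, ← Finset.sum_add_distrib]
    refine Finset.sum_congr rfl fun f _ => ?_
    rw [sq_inner_integral, norm_smul, mul_pow, Real.norm_eq_abs, sq_abs]

/-- Exponent bookkeeping of the digit recursion. -/
noncomputable def Ax (n : ℕ) : ℝ := (1 - (1 / 4 : ℝ) ^ n) / 3

lemma Ax_zero : Ax 0 = 0 := by simp [Ax]

lemma Ax_succ (n : ℕ) : Ax (n + 1) = Ax n + ((1 / 2 : ℝ) ^ (n + 1)) ^ 2 := by
  unfold Ax
  rw [pow_succ (1 / 4 : ℝ) n, ← pow_mul, show (n + 1) * 2 = 2 * n + 2 by ring, pow_add, pow_mul]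
  norm_num
  ring

lemma Ax_le (n : ℕ) : Ax n ≤ 1 / 3 := by
  unfold Ax
  have : 0 ≤ (1 / 4 : ℝ) ^ n := by positivity
  linarith

lemma Ax_nonneg (n : ℕ) : 0 ≤ Ax n := by
  unfold Ax
  have : (1 / 4 : ℝ) ^ n ≤ 1 := pow_le_one₀ (by norm_num) (by norm_num)
  linarith

/-- One digit step. -/
lemma digit_step {ι : Type} [Fintype ι] (l : ι → E) (hl : ∀ v, ‖l v‖ ≤ 1)
    (odd : ι → Prop) [DecidablePred odd] (b : R → E) (hb : ∀ e, ‖b e‖ ≤ 1)
    (Lf : F → E) (ζ t κ : ℝ) (hκ : 0 ≤ κ) (x : F → ℝ)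
    (C S : ℝ) (hC : 0 ≤ C) (hS : 0 ≤ S) (h : ℝ) (O : E) :
    ∃ ε : ι → ℝ, (∀ i, ε i = 1 ∨ ε i = -1) ∧
      C * Ex b t (O + h • ∑ v, (if odd v then ε v else 0) • l v)
        + κ * (Qd Lf ζ x (O + h • ∑ v, (if odd v then ε v else 0) • l v) + S)
      ≤ C * (Real.exp ((t * (h * (10 / 3))) ^ 2 / 2) * Ex b t O)
        + κ * (Qd Lf ζ x O + (ζ * (h * (10 / 3))) ^ 2 * (∑ f, ‖Lf f‖ ^ 2) + S) := by
  let u : ι → E := fun v => (3 / 10 : ℝ) • (if odd v then l v else 0)
  have hu : ∀ v, ‖u v‖ ≤ 3 / 10 := by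
    intro v
    simp only [u]
    by_cases hv : odd v
    · simp only [hv, if_true, norm_smul, Real.norm_eq_abs]
      rw [abs_of_pos (by norm_num : (0:ℝ) < 3 / 10)]
      nlinarith [hl v, norm_nonneg (l v)]
    · simp [hv]
      norm_num
  set s : ℝ := h * (10 / 3) with hs
  obtain ⟨hE1, hE2⟩ := Ex_shift_integral b hb t s O
  obtain ⟨hQ1, hQ2⟩ := Qd_shift_integral Lf ζ x s O
  let T : E → ℝ := fun z => C * Ex b t (O + s • z) + κ * (Qd Lf ζ x (O + s • z) + S)
  have hT : Adm T := (hE1.smul hC).add ((hQ1.add (adm_const hS)).smul hκ)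
  obtain ⟨ε, hε, hF⟩ := fb_one u hu T hT
  refine ⟨ε, hε, ?_⟩
  have hz : s • ∑ i, ε i • u i = h • ∑ v, (if odd v then ε v else 0) • l v := by
    rw [Finset.smul_sum, Finset.smul_sum]
    refine Finset.sum_congr rfl fun v _ => ?_
    simp only [u, hs]
    by_cases hv : odd v
    · simp only [hv, if_true, smul_smul]
      congr 1
      ring
    · simp [hv]
  have hleft : T (∑ i, ε i • u i) = C * Ex b t (O + h • ∑ v, (if odd v then ε v else 0) • l v)
        + κ * (Qd Lf ζ x (O + h • ∑ v, (if odd v then ε v else 0) • l v) + S) := by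
    simp only [T]
    rw [hz]
  rw [← hleft]
  refine hF.trans ?_
  have hi : ∫ z, T z ∂(stdGaussian E)
      = C * ∫ z, Ex b t (O + s • z) ∂(stdGaussian E)
        + κ * (∫ z, Qd Lf ζ x (O + s • z) ∂(stdGaussian E) + S) := by
    simp only [T]
    have i1 : Integrable (fun z : E => C * Ex b t (O + s • z)) (stdGaussian E) :=
      hE1.integrable.const_mul _
    have i2 : Integrable (fun z : E => Qd Lf ζ x (O + s • z) + S) (stdGaussian E) :=
      hQ1.integrable.add (integrable_const S)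
    have i3 : Integrable (fun z : E => κ * (Qd Lf ζ x (O + s • z) + S)) (stdGaussian E) :=
      i2.const_mul _
    rw [integral_add i1 i3, integral_const_mul, integral_const_mul,
      integral_add hQ1.integrable (integrable_const S)]
    simp
  rw [hi]
  refine add_le_add (mul_le_mul_of_nonneg_left hE2 hC) (mul_le_mul_of_nonneg_left ?_ hκ)
  linarith

/-- The dyadic digit recursion. -/
theorem dyadic_round {ι : Type} [Fintype ι] (l : ι → E) (hl : ∀ v, ‖l v‖ ≤ 1)
    (b : R → E) (hb : ∀ e, ‖b e‖ ≤ 1) (Lf : F → E)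
    (ζ t κ : ℝ) (hκ : 0 ≤ κ) (x : F → ℝ) (n : ℕ) :
    ∀ (m : ι → ℕ), (∀ v, m v ≤ 2 ^ n) → ∀ O : E,
      ∃ Y : ι → ℝ, (∀ v, Y v = 0 ∨ Y v = 1) ∧
        Ex b t (O + ∑ v, (Y v - m v / 2 ^ n) • l v)
          + κ * Qd Lf ζ x (O + ∑ v, (Y v - m v / 2 ^ n) • l v)
        ≤ Real.exp (t ^ 2 * (100 / 9) / 2 * Ax n) * Ex b t O
          + κ * (Qd Lf ζ x O + ζ ^ 2 * (100 / 9) * Ax n * ∑ f, ‖Lf f‖ ^ 2) := by
  classical
  induction n with
  | zero =>
    intro m hm O
    refine ⟨fun v => m v, fun v => ?_, ?_⟩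
    · have := hm v
      simp only [pow_zero] at this
      have h2 : m v = 0 ∨ m v = 1 := by omega
      rcases h2 with h2 | h2
      · left; simp [h2]
      · right; simp [h2]
    · simp [Ax_zero]
  | succ n ih =>
    intro m hm O
    set h : ℝ := (1 / 2 : ℝ) ^ (n + 1) with hh
    have hCn : 0 ≤ Real.exp (t ^ 2 * (100 / 9) / 2 * Ax n) := (Real.exp_pos _).le
    have hSn : 0 ≤ ζ ^ 2 * (100 / 9) * Ax n * ∑ f, ‖Lf f‖ ^ 2 := by
      have := Ax_nonneg n
      positivity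
    obtain ⟨ε, hε, hstep⟩ := digit_step l hl (fun v => m v % 2 = 1) b hb Lf ζ t κ hκ x
      (Real.exp (t ^ 2 * (100 / 9) / 2 * Ax n)) (ζ ^ 2 * (100 / 9) * Ax n * ∑ f, ‖Lf f‖ ^ 2)
      hCn hSn h O
    have hm' : ∀ v, ∃ k : ℕ, k ≤ 2 ^ n ∧ (k : ℝ) / 2 ^ n
        = (m v : ℝ) / 2 ^ (n + 1) + h * (if m v % 2 = 1 then ε v else 0) := by
      intro v
      have hmv := hm v
      have hp : (2 : ℝ) ^ (n + 1) = 2 * 2 ^ n := by rw [pow_succ]; ring
      have hh2 : h = 1 / (2 * 2 ^ n) := by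
        rw [hh, ← hp, one_div_pow, one_div]
      have hpos : (0 : ℝ) < 2 ^ n := by positivity
      by_cases hodd : m v % 2 = 1
      · rw [if_pos hodd]
        rcases hε v with he | he
        · refine ⟨(m v + 1) / 2, ?_, ?_⟩
          · have : (2:ℕ) ^ (n + 1) = 2 * 2 ^ n := by rw [pow_succ]; ring
            omega
          · have hk : (((m v + 1) / 2 : ℕ) : ℝ) * 2 = (m v : ℝ) + 1 := by
              have : (m v + 1) / 2 * 2 = m v + 1 := by omega
              exact_mod_cast this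
            rw [he, hp, hh2]
            field_simp
            linarith
        · refine ⟨(m v - 1) / 2, ?_, ?_⟩
          · have : (2:ℕ) ^ (n + 1) = 2 * 2 ^ n := by rw [pow_succ]; ring
            omega
          · have hk : (((m v - 1) / 2 : ℕ) : ℝ) * 2 = (m v : ℝ) - 1 := by
              have h1 : (m v - 1) / 2 * 2 + 1 = m v := by omega
              have h2 : (((m v - 1) / 2 * 2 + 1 : ℕ) : ℝ) = (m v : ℝ) := by rw [h1]
              push_cast at h2
              linarith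
            rw [he, hp, hh2]
            field_simp
            linarith
      · rw [if_neg hodd]
        refine ⟨m v / 2, ?_, ?_⟩
        · have : (2:ℕ) ^ (n + 1) = 2 * 2 ^ n := by rw [pow_succ]; ring
          omega
        · have hk : ((m v / 2 : ℕ) : ℝ) * 2 = (m v : ℝ) := by
            have : m v / 2 * 2 = m v := by omega
            exact_mod_cast this
          rw [hp]
          field_simp
          linarith
    choose m' hm'1 hm'2 using hm'
    set O1 : E := O + h • ∑ v, (if m v % 2 = 1 then ε v else 0) • l v with hO1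
    obtain ⟨Y, hY, hPhi⟩ := ih m' hm'1 O1
    refine ⟨Y, hY, ?_⟩
    have hsame : O + ∑ v, (Y v - (m v : ℝ) / 2 ^ (n + 1)) • l v
        = O1 + ∑ v, (Y v - (m' v : ℝ) / 2 ^ n) • l v := by
      rw [hO1, Finset.smul_sum, add_assoc, ← Finset.sum_add_distrib]
      congr 1
      refine Finset.sum_congr rfl fun v _ => ?_
      rw [hm'2 v, smul_smul, ← add_smul]
      congr 1
      ring
    rw [hsame]
    refine hPhi.trans (hstep.trans ?_)
    have hexp : t ^ 2 * (100 / 9) / 2 * Ax (n + 1)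
        = t ^ 2 * (100 / 9) / 2 * Ax n + (t * (h * (10 / 3))) ^ 2 / 2 := by
      rw [Ax_succ]
      ring
    have hquad : ζ ^ 2 * (100 / 9) * Ax (n + 1) * ∑ f, ‖Lf f‖ ^ 2
        = (ζ * (h * (10 / 3))) ^ 2 * (∑ f, ‖Lf f‖ ^ 2)
          + ζ ^ 2 * (100 / 9) * Ax n * ∑ f, ‖Lf f‖ ^ 2 := by
      rw [Ax_succ]
      ring
    rw [hexp, hquad, Real.exp_add, mul_assoc]
    refine le_of_eq ?_
    ring

/-- **Rounding with quadratic steering.** -/
theorem kr2 {ι : Type} [Fintype ι] (l : ι → E) (hl : ∀ v, ‖l v‖ ≤ 1)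
    (y : ι → ℝ) (hy : ∀ v, 0 ≤ y v ∧ y v ≤ 1)
    (b : R → E) (hb : ∀ e, ‖b e‖ ≤ 1) (Lf : F → E)
    (ζ t κ : ℝ) (hκ : 0 ≤ κ) (x : F → ℝ) :
    ∃ Y : ι → ℝ, (∀ v, Y v = 0 ∨ Y v = 1) ∧
      Ex b t (∑ v, (Y v - y v) • l v) + κ * Qd Lf ζ x (∑ v, (Y v - y v) • l v)
        ≤ Real.exp (t ^ 2 * (100 / 27) / 2) * (2 * Fintype.card R)
          + κ * (∑ f, x f ^ 2 + ζ ^ 2 * (100 / 27) * ∑ f, ‖Lf f‖ ^ 2) := by
  classical
  -- the bound
  set Bd : ℝ := Real.exp (t ^ 2 * (100 / 27) / 2) * (2 * Fintype.card R)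
          + κ * (∑ f, x f ^ 2 + ζ ^ 2 * (100 / 27) * ∑ f, ‖Lf f‖ ^ 2) with hBd
  -- dyadic approximations
  let m : ℕ → ι → ℕ := fun n v => ⌊y v * 2 ^ n⌋₊
  have hm : ∀ n v, m n v ≤ 2 ^ n := by
    intro n v
    have hpow : (0 : ℝ) < 2 ^ n := by positivity
    have h1 : (m n v : ℝ) ≤ y v * 2 ^ n :=
      Nat.floor_le (mul_nonneg (hy v).1 hpow.le)
    have h2 : (m n v : ℝ) ≤ 2 ^ n := by nlinarith [(hy v).2]
    exact_mod_cast h2
  have hlim : ∀ v, Filter.Tendsto (fun n : ℕ => (m n v : ℝ) / 2 ^ n) Filter.atTop (nhds (y v)) := by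
    intro v
    have hsq : Filter.Tendsto (fun n : ℕ => ((1 / 2 : ℝ)) ^ n) Filter.atTop (nhds 0) :=
      tendsto_pow_atTop_nhds_zero_of_lt_one (by norm_num) (by norm_num)
    have hlo : Filter.Tendsto (fun n : ℕ => y v - (1 / 2 : ℝ) ^ n) Filter.atTop (nhds (y v)) := by
      simpa using (tendsto_const_nhds (x := y v)).sub hsq
    refine tendsto_of_tendsto_of_tendsto_of_le_of_le hlo tendsto_const_nhds ?_ ?_
    · intro n
      have hpow : (0 : ℝ) < 2 ^ n := by positivity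
      have h2 : y v * 2 ^ n < (m n v : ℝ) + 1 := Nat.lt_floor_add_one _
      have e : (1 / 2 : ℝ) ^ n = 1 / 2 ^ n := by rw [one_div_pow]
      simp only
      rw [e, sub_le_iff_le_add]
      have h3 : (m n v : ℝ) / 2 ^ n + 1 / 2 ^ n = ((m n v : ℝ) + 1) / 2 ^ n := by ring
      rw [h3, le_div_iff₀ hpow]
      exact h2.le
    · intro n
      have hpow : (0 : ℝ) < 2 ^ n := by positivity
      have h1 : (m n v : ℝ) ≤ y v * 2 ^ n :=
        Nat.floor_le (mul_nonneg (hy v).1 hpow.le)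
      simp only
      rw [div_le_iff₀ hpow]
      exact h1
  -- for each n a rounding
  have hEach : ∀ n : ℕ, ∃ Y : ι → Fin 2,
      Ex b t (∑ v, (((Y v : ℕ) : ℝ) - (m n v : ℝ) / 2 ^ n) • l v)
        + κ * Qd Lf ζ x (∑ v, (((Y v : ℕ) : ℝ) - (m n v : ℝ) / 2 ^ n) • l v) ≤ Bd := by
    intro n
    obtain ⟨Y, hY, hb1⟩ := dyadic_round l hl b hb Lf ζ t κ hκ x n (m n) (hm n) (0 : E)
    have hYv : ∀ v, ∃ c : Fin 2, Y v = ((c : ℕ) : ℝ) := by
      intro v
      rcases hY v with h | h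
      · exact ⟨0, by simp [h]⟩
      · exact ⟨1, by simp [h]⟩
    choose c hc using hYv
    refine ⟨c, ?_⟩
    simp only [zero_add] at hb1
    have e : ∀ v, (((c v : ℕ) : ℝ) - (m n v : ℝ) / 2 ^ n) = Y v - (m n v : ℝ) / 2 ^ n := by
      intro v
      rw [hc v]
    simp only [e]
    refine hb1.trans ?_
    rw [hBd, Ex_zero, Qd_zero]
    have hA := Ax_le n
    have h1 : t ^ 2 * (100 / 9) / 2 * Ax n ≤ t ^ 2 * (100 / 27) / 2 := by
      nlinarith [sq_nonneg t]
    have h2 : ζ ^ 2 * (100 / 9) * Ax n * ∑ f, ‖Lf f‖ ^ 2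
        ≤ ζ ^ 2 * (100 / 27) * ∑ f, ‖Lf f‖ ^ 2 := by
      have h3 : (0:ℝ) ≤ ζ ^ 2 * ∑ f, ‖Lf f‖ ^ 2 := by positivity
      nlinarith
    refine add_le_add ?_ (mul_le_mul_of_nonneg_left (by linarith) hκ)
    exact mul_le_mul_of_nonneg_right (Real.exp_le_exp.mpr h1) (by positivity)
  choose Yn hYn using hEach
  -- pigeonhole
  obtain ⟨Y, hinf⟩ := Finite.exists_infinite_fiber Yn
  have hfreq : ∃ᶠ n in Filter.atTop, Yn n = Y := by
    rw [Nat.frequently_atTop_iff_infinite]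
    exact Set.infinite_coe_iff.mp hinf
  refine ⟨fun v => ((Y v : ℕ) : ℝ), fun v => ?_, ?_⟩
  · have : (Y v : ℕ) = 0 ∨ (Y v : ℕ) = 1 := by omega
    rcases this with h | h
    · left; simp [h]
    · right; simp [h]
  · -- continuity
    have hcont : Filter.Tendsto (fun n : ℕ =>
        Ex b t (∑ v, (((Y v : ℕ) : ℝ) - (m n v : ℝ) / 2 ^ n) • l v)
          + κ * Qd Lf ζ x (∑ v, (((Y v : ℕ) : ℝ) - (m n v : ℝ) / 2 ^ n) • l v))
        Filter.atTop (nhds (Ex b t (∑ v, (((Y v : ℕ) : ℝ) - y v) • l v)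
          + κ * Qd Lf ζ x (∑ v, (((Y v : ℕ) : ℝ) - y v) • l v))) := by
      have hO : Filter.Tendsto (fun n : ℕ => ∑ v, (((Y v : ℕ) : ℝ) - (m n v : ℝ) / 2 ^ n) • l v)
          Filter.atTop (nhds (∑ v, (((Y v : ℕ) : ℝ) - y v) • l v)) := by
        refine tendsto_finsetSum _ fun v _ => ?_
        exact (tendsto_const_nhds.sub (hlim v)).smul_const _
      have hC : Continuous (fun O : E => Ex b t O + κ * Qd Lf ζ x O) := by
        unfold Ex Qd
        fun_prop
      exact hC.continuousAt.tendsto.comp hO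
    by_contra hcon
    push Not at hcon
    have hev := hcont.eventually (lt_mem_nhds hcon)
    obtain ⟨n, hn1, hn2⟩ := (hfreq.and_eventually hev).exists
    have := hYn n
    rw [hn1] at this
    linarith



/-- The quadratic potential `Q(O) = ∑ e, (c e + β e ⟪b e, O⟫)^2`. -/
noncomputable def QQ (b : R → E) (β c : R → ℝ) (O : E) : ℝ :=
  ∑ e, (c e + β e * ⟪b e, O⟫_ℝ) ^ 2

/-- Exponential beats linear. -/
lemma log_bound_of_exp_le {τ K : ℝ} (hτ : 0 ≤ τ) (hK : 0 < K)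
    (h : Real.exp τ ≤ K * (1 + τ)) : τ ≤ 2 * Real.log (2 * K) := by
  have h1 : 1 + τ ≤ 2 * Real.exp (τ / 2) := by
    have := Real.add_one_le_exp (τ / 2)
    nlinarith
  have h2 : Real.exp τ = Real.exp (τ / 2) * Real.exp (τ / 2) := by
    rw [← Real.exp_add]; congr 1; ring
  have hp := Real.exp_pos (τ / 2)
  have h3 : Real.exp (τ / 2) ≤ 2 * K := by
    have : Real.exp (τ / 2) * Real.exp (τ / 2) ≤ (2 * K) * Real.exp (τ / 2) := by
      rw [← h2]
      calc Real.exp τ ≤ K * (1 + τ) := h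
        _ ≤ K * (2 * Real.exp (τ / 2)) := by
            exact mul_le_mul_of_nonneg_left h1 hK.le
        _ = (2 * K) * Real.exp (τ / 2) := by ring
    exact le_of_mul_le_mul_right this hp
  have h4 := (Real.le_log_iff_exp_le (by positivity)).mpr h3
  linarith

/-- **QKR**: simultaneous control of the exponential rows and of the quadratic potential.
`S2 = ∑ β^2`, `C2 = ∑ c^2`.  The rounding `O = ∑ (Y v - y v) • l v` has
`Q(O) ≤ C2 + (100/27) S2 + η` and, for all rows, `t |⟪b e, O⟫| ≤ 2 log (2 K)` with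
`K = E0 (1 + (100/27) S2 / η + 2 √C2 √S2 / (η t))`, `E0 = exp (50 t²/27) 2 |R|`. -/
theorem qkr_main [Nonempty R] {ι : Type} [Fintype ι] (l : ι → E) (hl : ∀ v, ‖l v‖ ≤ 1)
    (y : ι → ℝ) (hy : ∀ v, 0 ≤ y v ∧ y v ≤ 1)
    (b : R → E) (hb : ∀ e, ‖b e‖ ≤ 1) (β c : R → ℝ) (t η : ℝ) (ht : 0 < t) (hη : 0 < η) :
    ∃ Y : ι → ℝ, (∀ v, Y v = 0 ∨ Y v = 1) ∧
      QQ b β c (∑ v, (Y v - y v) • l v)
        ≤ ∑ e, c e ^ 2 + 100 / 27 * ∑ e, β e ^ 2 + η ∧
      ∀ e, t * |⟪b e, ∑ v, (Y v - y v) • l v⟫_ℝ|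
        ≤ 2 * Real.log (2 * (Real.exp (t ^ 2 * (100 / 27) / 2) * (2 * Fintype.card R)
            * (1 + (100 / 27 * ∑ e, β e ^ 2) / η
              + 2 * (√(∑ e, c e ^ 2) * √(∑ e, β e ^ 2)) / (η * t)))) := by
  classical
  set S2 : ℝ := ∑ e, β e ^ 2 with hS2
  set C2 : ℝ := ∑ e, c e ^ 2 with hC2
  have hS2nn : 0 ≤ S2 := Finset.sum_nonneg fun _ _ => sq_nonneg _
  have hC2nn : 0 ≤ C2 := Finset.sum_nonneg fun _ _ => sq_nonneg _
  set E0 : ℝ := Real.exp (t ^ 2 * (100 / 27) / 2) * (2 * Fintype.card R) with hE0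
  have hcard : (0 : ℝ) < Fintype.card R := by exact_mod_cast Fintype.card_pos
  have hE0pos : 0 < E0 := by positivity
  set κ : ℝ := E0 / η with hκdef
  have hκ : 0 ≤ κ := by positivity
  have hκpos : 0 < κ := by positivity
  let Lf : R → E := fun e => β e • b e
  have hLf : ∑ e, ‖Lf e‖ ^ 2 ≤ S2 := by
    refine Finset.sum_le_sum fun e _ => ?_
    simp only [Lf]
    rw [norm_smul, mul_pow, Real.norm_eq_abs, sq_abs]
    have h1 : ‖b e‖ ^ 2 ≤ 1 := by nlinarith [hb e, norm_nonneg (b e)]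
    nlinarith [sq_nonneg (β e)]
  obtain ⟨Y, hY, hbd⟩ := kr2 l hl y hy b hb Lf 1 t κ hκ c
  refine ⟨Y, hY, ?_⟩
  set O : E := ∑ v, (Y v - y v) • l v with hO
  have hQQ : Qd Lf 1 c O = QQ b β c O := by
    unfold Qd QQ
    refine Finset.sum_congr rfl fun e _ => ?_
    simp only [Lf, one_mul, inner_smul_left]
    simp
  rw [hQQ] at hbd
  have hbd2 : Ex b t O + κ * QQ b β c O ≤ E0 + κ * (C2 + 100 / 27 * S2) := by
    refine hbd.trans ?_
    have h1 : (1:ℝ) ^ 2 * (100 / 27) * ∑ f, ‖Lf f‖ ^ 2 ≤ 100 / 27 * S2 := by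
      nlinarith
    have : κ * (C2 + (1:ℝ) ^ 2 * (100 / 27) * ∑ f, ‖Lf f‖ ^ 2)
        ≤ κ * (C2 + 100 / 27 * S2) :=
      mul_le_mul_of_nonneg_left (by linarith) hκ
    linarith
  have hEx0 := Ex_nonneg b t O
  constructor
  · -- the quadratic bound
    have h1 : κ * QQ b β c O ≤ E0 + κ * (C2 + 100 / 27 * S2) := by linarith
    have h2 : E0 = κ * η := by
      rw [hκdef]; field_simp
    rw [h2] at h1
    have h3 : κ * QQ b β c O ≤ κ * (C2 + 100 / 27 * S2 + η) := by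
      have : κ * (C2 + 100 / 27 * S2 + η) = κ * η + κ * (C2 + 100 / 27 * S2) := by ring
      rw [this]; exact h1
    exact le_of_mul_le_mul_left h3 hκpos
  · -- the row bound
    obtain ⟨e0, -, he0⟩ := Finset.exists_max_image (Finset.univ : Finset R)
      (fun e => |⟪b e, O⟫_ℝ|) ⟨Classical.arbitrary R, Finset.mem_univ _⟩
    set m : ℝ := |⟪b e0, O⟫_ℝ| with hm
    have hm0 : 0 ≤ m := abs_nonneg _
    have hle : ∀ e, |⟪b e, O⟫_ℝ| ≤ m := fun e => he0 e (Finset.mem_univ _)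
    -- lower bound on QQ
    have hQlow : C2 - 2 * (√C2 * √S2) * m ≤ QQ b β c O := by
      have h1 : ∀ e, c e ^ 2 - 2 * (|c e| * |β e|) * m ≤ (c e + β e * ⟪b e, O⟫_ℝ) ^ 2 := by
        intro e
        have h2 : |c e * (β e * ⟪b e, O⟫_ℝ)| ≤ |c e| * |β e| * m := by
          rw [abs_mul, abs_mul, ← mul_assoc]
          exact mul_le_mul_of_nonneg_left (hle e) (by positivity)
        have h3 := neg_abs_le (c e * (β e * ⟪b e, O⟫_ℝ))
        nlinarith [sq_nonneg (β e * ⟪b e, O⟫_ℝ)]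
      have h2 : ∑ e, |c e| * |β e| ≤ √C2 * √S2 := by
        have := Real.sum_mul_le_sqrt_mul_sqrt (Finset.univ : Finset R)
          (fun e => |c e|) (fun e => |β e|)
        simpa [sq_abs] using this
      have h3 : ∑ e, (c e ^ 2 - 2 * (|c e| * |β e|) * m) ≤ QQ b β c O :=
        Finset.sum_le_sum fun e _ => h1 e
      have h4 : ∑ e, (c e ^ 2 - 2 * (|c e| * |β e|) * m)
          = C2 - 2 * (∑ e, |c e| * |β e|) * m := by
        rw [Finset.sum_sub_distrib]
        congr 1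
        rw [Finset.mul_sum, Finset.sum_mul]
      rw [h4] at h3
      nlinarith
    -- upper bound on the maximal exponential
    have hExlow : Real.exp (t * m) ≤ Ex b t O := by
      have h1 : Real.exp (t * m) ≤ Real.exp (t * ⟪b e0, O⟫_ℝ) + Real.exp (-t * ⟪b e0, O⟫_ℝ) := by
        rcases abs_cases ⟪b e0, O⟫_ℝ with ⟨h, _⟩ | ⟨h, _⟩
        · rw [hm, h]
          have := Real.exp_pos (-t * ⟪b e0, O⟫_ℝ)
          linarith
        · rw [hm, h]
          have h3 := Real.exp_pos (t * ⟪b e0, O⟫_ℝ)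
          have e : t * -⟪b e0, O⟫_ℝ = -t * ⟪b e0, O⟫_ℝ := by ring
          rw [e]
          linarith
      refine h1.trans ?_
      unfold Ex
      exact Finset.single_le_sum (f := fun e => Real.exp (t * ⟪b e, O⟫_ℝ)
        + Real.exp (-t * ⟪b e, O⟫_ℝ))
        (fun e _ => add_nonneg (Real.exp_pos _).le (Real.exp_pos _).le) (Finset.mem_univ e0)
    -- combine
    set K : ℝ := E0 * (1 + (100 / 27 * S2) / η + 2 * (√C2 * √S2) / (η * t)) with hK
    have hKpos : 0 < K := by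
      have h1 : 0 ≤ (100 / 27 * S2) / η := by positivity
      have h2 : 0 ≤ 2 * (√C2 * √S2) / (η * t) := by positivity
      exact mul_pos hE0pos (by linarith)
    have hτ : 0 ≤ t * m := by positivity
    have hmain : Real.exp (t * m) ≤ K * (1 + t * m) := by
      have h1 : Ex b t O ≤ E0 + κ * (C2 + 100 / 27 * S2) - κ * QQ b β c O := by linarith
      have h2 : κ * (C2 + 100 / 27 * S2) - κ * QQ b β c O
          ≤ κ * (100 / 27 * S2 + 2 * (√C2 * √S2) * m) := by
        have : C2 + 100 / 27 * S2 - QQ b β c O ≤ 100 / 27 * S2 + 2 * (√C2 * √S2) * m := by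
          linarith
        have := mul_le_mul_of_nonneg_left this hκ
        linarith
      have h3 : E0 + κ * (100 / 27 * S2 + 2 * (√C2 * √S2) * m)
          = E0 * (1 + (100 / 27 * S2) / η + 2 * (√C2 * √S2) / (η * t) * (t * m)) := by
        rw [hκdef]
        field_simp
        try ring
      have h4 : E0 * (1 + (100 / 27 * S2) / η + 2 * (√C2 * √S2) / (η * t) * (t * m))
          ≤ K * (1 + t * m) := by
        have e1 : K * (1 + t * m)
            = E0 * ((1 + (100 / 27 * S2) / η + 2 * (√C2 * √S2) / (η * t)) * (1 + t * m)) := by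
          rw [hK]; ring
        rw [e1]
        refine mul_le_mul_of_nonneg_left ?_ hE0pos.le
        have a1 : 0 ≤ (100 / 27 * S2) / η := by positivity
        have a2 : 0 ≤ 2 * (√C2 * √S2) / (η * t) := by positivity
        nlinarith [mul_nonneg a1 hτ]
      linarith
    have hfin := log_bound_of_exp_le hτ hKpos hmain
    intro e
    have : t * |⟪b e, O⟫_ℝ| ≤ t * m := mul_le_mul_of_nonneg_left (hle e) ht.le
    exact this.trans hfin

end Vale.Agent.P262V
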